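import Vale.Agent.P011UQ.IF
import Vale.Agent.P011.Hey.Fin0
import Vale.Agent.P011.Hey.H63.PlaceRes

/-!
One quadratic extension splits finitely many projective actions of exponent two.
-/

set_option autoImplicit false
set_option linter.all false

namespace Vale.Agent.P011UQ8

open Module IntermediateField Polynomial NumberField IsDedekindDomain Vale.Agent.P011
  Vale.Agent.P011LD Vale.Agent.P011LQ Vale.Agent.P011U Vale.Agent.P011.H738 Vale.Agent.P011.H271
  Vale.Agent.P011UQ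

variable {k K : Type} [Field k] [Field K] [Algebra k K]

/-- A root of a quadratic polynomial outside of the fixed field. -/
theorem quad [IsGalois k K] {Γ : Subgroup (K ≃ₐ[k] K)} {F : IntermediateField k K}
    (hF : ∀ σ, σ ∈ Γ ↔ ∀ x ∈ F, σ x = x) {r : K} (hr : r ∉ F) {b c : k}
    (h : r ^ 2 + algebraMap k K b * r + algebraMap k K c = 0) :
    finrank k k⟮r⟯ = 2 ∧ ∃ σ ∈ Γ, σ r ≠ r := by
  have hi := Algebra.IsIntegral.isIntegral (R := k) r
  refine ⟨?_, ?_⟩
  · rw [adjoin.finrank hi]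
    refine le_antisymm ?_ ((minpoly.two_le_natDegree_iff hi).2 ?_)
    · have h1 : (X ^ 2 + C b * X + C c : k[X]).Monic := by monicity!
      refine (natDegree_le_of_dvd (minpoly.dvd k r ?_) h1.ne_zero).trans (by compute_degree)
      simpa using h
    · rintro ⟨x, rfl⟩
      exact hr (F.algebraMap_mem x)
  · by_contra hc
    refine hr (fixed_sub F fun σ s => by_contra fun e => hc ⟨σ, (hF σ).2 fun x hx => s ⟨x, hx⟩, e⟩)

theorem not_cj {r : K} (h : NoR k⟮r⟯) {Ψ : K →+* ℂ} {κ : K ≃ₐ[k] K}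
    (e1 : ∀ x, Ψ (κ x) = starRingEnd ℂ (Ψ x)) (e2 : κ r = r) : False := by
  obtain ⟨φ, -⟩ := descend (Ψ.comp (algebraMap k⟮r⟯ K)) Complex.ofRealHom Complex.ofReal_injective
    fun x => ⟨_, Complex.conj_eq_iff_re.1 ((e1 x).symm.trans (congrArg Ψ (fix_adjoin e2 x)))⟩
  exact h.false φ

/-- **Number fields.** -/
theorem bqn : BQN := by
  intro k K _ _ _ _ hk Γ hΓ hi ι n _ _ _ _ Δ A l hΔ h
  have : NumberField k := hk
  have : IsAlgClosure k K := IsSepClosure.isAlgClosure_of_perfectField k K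
  have := IsAlgClosure.isAlgClosed k (K := K)
  obtain ⟨F, _, h1, h2⟩ := exists_field hΓ
  have : NumberField F := NumberField.of_module_finite k F
  have : IsAlgClosure F K := ⟨inferInstance, Algebra.IsAlgebraic.tower_top (K := k) F⟩
  have key : ∀ i, ∃ S : Set (HeightOneSpectrum (𝓞 F)), S.Finite ∧ ∀ (a : k) (r : K),
      r ^ 2 = algebraMap k K a → NoR k⟮r⟯ →
      (∀ w ∈ S, ¬IsSquare (algebraMap F (w.adicCompletion F) (algebraMap k F a))) →
      Sp {σ | σ ∈ Δ i ∧ σ r = r} (A i) := fun i => by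
    have hp := h i
    rcases hΔ i with e | e <;> rw [e] at hp ⊢
    · obtain ⟨S, hS, h4⟩ := hp.two
      choose f hf using fun v => Arith.exists_above (F := k) (E := F) v
      refine ⟨f '' S, hS.image f, fun a r hr hn ha => (h4 a r hr (fun v hv => ?_)
        fun Ψ κ e1 e2 => (not_cj hn e1 e2).elim).mono fun σ s => s.2⟩
      obtain ⟨g, -, hg⟩ := Pow.completion_map_cont (hf v)
      exact fun e' => ha _ ⟨v, hv, rfl⟩ (hg a ▸ e'.map g)
    · obtain ⟨S, hS, h4⟩ := (hp.res h2).two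
      exact ⟨S, hS, fun a r hr hn ha => Sp.res h2 (h4 (algebraMap k F a) r hr ha
        fun Ψ κ e1 e2 => (not_cj hn (κ := κ.restrictScalars k) e1 e2).elim)⟩
  choose S hS h4 using key
  obtain ⟨a, a1, a2, a3⟩ := exists_a (k := k) F (h1 ▸ hi) (Set.finite_iUnion hS) F ∅
  obtain ⟨r, hr⟩ := IsAlgClosed.exists_pow_nat_eq (algebraMap k K a) two_pos
  have hn : NoR k⟮r⟯ := ⟨fun φ => (a3 (φ.comp (algebraMap k _))).1 (lt_of_le_of_ne (by
    rw [RingHom.comp_apply, ← show AdjoinSimple.gen k r ^ 2 = algebraMap k k⟮r⟯ a from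
      Subtype.ext hr, map_pow]
    exact sq_nonneg _) ((_root_.map_ne_zero _).2 a.ne_zero).symm)⟩
  obtain ⟨b1, b2⟩ := quad h2 (r := r) (b := 0) (c := -a)
    (fun e => a2 ⟨⟨r, e⟩, Subtype.ext (hr.symm.trans (sq r))⟩) (by simp [hr])
  exact ⟨r, b1, hn, b2, fun i => h4 i a r hr hn fun w hw => a1 w (Set.mem_iUnion.2 ⟨i, hw⟩)⟩

theorem no_root {R : Type} [NormedField R] [IsUltrametricDist R] {a y : R} (h : Lt a) :
    y ^ 2 + y + a ≠ 0 := fun e => by
  have h1 : ‖a‖ = ‖y‖ * ‖y + 1‖ := by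
    rw [show a = -(y * (y + 1)) by linear_combination e, norm_neg, norm_mul]
  by_cases hy : ‖y‖ ≤ 1
  · rcases h with h | h
    · have := IsUltrametricDist.norm_add_le_max y 1
      rw [norm_one, max_eq_right hy] at this
      nlinarith [h.1, norm_nonneg y, norm_nonneg (y + 1)]
    · exact h.2 y hy (by rw [e, norm_zero]; exact one_pos)
  · rw [not_le] at hy
    rw [IsUltrametricDist.norm_add_eq_max_of_norm_ne_norm (by rw [norm_one]; exact hy.ne'),
      norm_one, max_eq_left hy.le] at h1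
    rcases h with h | h
    · exact h.2 y (by rw [h1, sq])
    · nlinarith [h.1]

theorem exists_root [IsSepClosed K] (a : K) : ∃ r : K, r ^ 2 + r + a = 0 := by
  by_cases h : ((2 : ℕ) : K) = 0
  · simpa using IsSepClosed.exists_root_C_mul_X_pow_add_C_mul_X_add_C (1 : K) 1 a h le_rfl
      one_ne_zero
  · have : NeZero ((2 : ℕ) : K) := ⟨h⟩
    obtain ⟨z, hz⟩ := IsSepClosed.exists_pow_nat_eq (1 - 4 * a) 2
    have h2 : (2 : K) ≠ 0 := by simpa using h
    exact ⟨(z - 1) / 2, by field_simp; linear_combination hz⟩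

theorem noR_gff (E : Type) [Field E] [h : GFF E] : NoR E := ⟨fun φ => by
  obtain ⟨F, _, _, ψ, -⟩ := h.out
  have := Fintype.ofFinite F
  have h1 := congrArg (φ.comp (ψ.comp (algebraMap F _))) (FiniteField.cast_card_eq_zero F)
  rw [map_natCast, map_zero, Nat.cast_eq_zero] at h1
  exact Fintype.card_ne_zero h1⟩

/-- **Function fields.** -/
theorem bqf (ht : TWF) (he : EXQ) : BQF := by
  intro k K _ _ _ _ hk Γ hΓ hi ι n _ _ _ _ Δ A l hΔ h
  have : GFF k := hk
  have := IsSepClosure.sep_closed k (K := K)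
  obtain ⟨F, _, h1, h2⟩ := exists_field hΓ
  have : GFF F := Hey.H63.gff_of_finite (k := k)
  have : IsSepClosure F K := ⟨inferInstance, Algebra.isSeparable_tower_top_of_isSeparable k F K⟩
  have key : ∀ i, ∃ (S : Set (Place k)) (S' : Set (Place F)), S.Finite ∧ S'.Finite ∧
      ∀ (a : k) (r : K), r ^ 2 + r + algebraMap k K a = 0 →
      (∀ v ∈ S, Lt (algebraMap k v.comp a)) →
      (∀ w ∈ S', Lt (algebraMap F w.comp (algebraMap k F a))) →
      Sp {σ | σ ∈ Δ i ∧ σ r = r} (A i) := fun i => by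
    have hp := h i
    rcases hΔ i with e | e <;> rw [e] at hp ⊢
    · obtain ⟨S, hS, h4⟩ := ht k K n _ _ hp
      exact ⟨S, ∅, hS, Set.finite_empty, fun a r hr ha _ => (h4 a r hr ha).mono fun σ s => s.2⟩
    · obtain ⟨S, hS, h4⟩ := ht F K n _ _ (hp.res h2)
      exact ⟨∅, S, Set.finite_empty, hS, fun a r hr _ ha =>
        Sp.res h2 (h4 (algebraMap k F a) r hr ha)⟩
  choose S S' hS hS' h4 using key
  obtain ⟨w⟩ := Hey.nonempty_place F
  obtain ⟨a, a1, a2⟩ := he k F (h1 ▸ hi) _ _ (Set.finite_iUnion hS)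
    ((Set.finite_iUnion hS').insert w)
  obtain ⟨r, hr⟩ := exists_root (algebraMap k K a)
  have : FiniteDimensional k k⟮r⟯ :=
    adjoin.finiteDimensional (Algebra.IsIntegral.isIntegral (R := k) r)
  have : GFF k⟮r⟯ := Hey.H63.gff_of_finite (k := k)
  obtain ⟨b1, b2⟩ := quad h2 (r := r) (b := 1) (c := a) (fun e => by
    have := isUltra w
    refine no_root (y := algebraMap F w.comp ⟨r, e⟩) (a2 w (Set.mem_insert _ _)) ?_
    rw [← map_pow, ← map_add, ← map_add, map_eq_zero]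
    exact Subtype.ext hr) (by simpa using hr)
  exact ⟨r, b1, noR_gff _, b2, fun i => h4 i a r hr (fun v hv => a1 v (Set.mem_iUnion.2 ⟨i, hv⟩))
    fun v hv => a2 v (Set.mem_insert_of_mem _ (Set.mem_iUnion.2 ⟨i, hv⟩))⟩

end Vale.Agent.P011UQ8
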